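import Vale.Agent.P140W90.Tr1

/-! # P140: row TR0, test functions on the torus -/

open MeasureTheory Set Topology Filter

namespace Vale.Agent.P140W36

open Vale.Agent.P122W36 (R3)
open T90

theorem tr0_90 : TR0 := by
  intro φ hφ hc
  let c0 : ℝ × R3 → ℝ × T3 := fun q => (q.1, proj q.2)
  have hq : IsOpenQuotientMap c0 := IsOpenQuotientMap.id.prodMap proj_open
  let ψ : ℝ × Om → ℝ := fun q => φ (q.1, q.2.1)
  have hψ : ContDiff ℝ (⊤ : ℕ∞) (ψ ∘ cov) :=
    hφ.comp (contDiff_fst.prodMk (contDiff_fst.comp contDiff_snd))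
  have hd : Differentiable ℝ (ψ ∘ cov) := hψ.differentiable (by simp)
  have hf : Continuous (fderiv ℝ (ψ ∘ cov)) := hψ.continuous_fderiv (by simp)
  have h1 : Continuous φ := hq.continuous_comp_iff.1 hφ.continuous
  have h0 : ∀ y, y ∉ tsupport φ → ∀ (γ : ℝ → ℝ × T3) (a : ℝ), Continuous γ → γ a = y →
      deriv (fun s => φ (γ s)) a = 0 := by
    intro y hy γ a hγ ha
    have h3 : φ =ᶠ[𝓝 y] 0 := notMem_tsupport_iff_eventuallyEq.1 hy
    have h6 : (fun s : ℝ => φ (γ s)) =ᶠ[𝓝 a] fun _ => 0 := h3.comp_tendsto (hγ.tendsto' a y ha)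
    rw [h6.deriv_eq, deriv_const]
  refine ⟨h1, hq.continuous_comp_iff.1 ?_, HasCompactSupport.intro hc fun y hy => ?_,
    fun i => ⟨hq.continuous_comp_iff.1 ?_, HasCompactSupport.intro hc fun y hy => ?_⟩,
    fun y v => ?_⟩
  · have e : dt φ ∘ c0 = fun p => fderiv ℝ (ψ ∘ cov) (p.1, p.2, 0) (1, 0, 0) :=
      funext fun p => d_t hd p.1 p.2 0
    rw [e]
    exact (hf.comp (by fun_prop)).clm_apply continuous_const
  · exact h0 y hy (fun s => (s, y.2)) y.1 (by fun_prop) rfl
  · have e : dx i φ ∘ c0 =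
        fun p => fderiv ℝ (ψ ∘ cov) (p.1, p.2, 0) (0, EuclideanSpace.single i 1, 0) :=
      funext fun p => d_x hd p.1 p.2 0 i
    rw [e]
    exact (hf.comp (by fun_prop)).clm_apply continuous_const
  · refine h0 y hy (fun s : ℝ => (y.1, y.2 + Pi.single i (s : UnitAddCircle))) 0 ?_ (by simp)
    have e : (fun s : ℝ => ((y.1, y.2 + Pi.single i (s : UnitAddCircle)) : ℝ × T3)) =
        fun s : ℝ => (y.1, y.2 + proj (s • EuclideanSpace.single i (1 : ℝ))) := by
      funext s
      rw [proj_single]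
    have := proj_open.continuous
    rw [e]
    fun_prop
  · obtain ⟨p, rfl⟩ := hq.surjective y
    exact (transport_cov hd (p.1, p.2, v)).trans (d_line hd p.1 p.2 v).symm

end Vale.Agent.P140W36
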