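import Vale.Agent.P140W36.Rows

/-! # P140: row TR1, test functions on the phase space -/

open MeasureTheory Set Topology Filter

namespace Vale.Agent.P140W36.T90

open Vale.Agent.P122W36 (R3)

theorem proj_add (x y : R3) : proj (x + y) = proj x + proj y := by
  funext i
  show ((x i + y i : ℝ) : UnitAddCircle) = (x i : UnitAddCircle) + (y i : UnitAddCircle)
  exact AddCircle.coe_add _ _ _

theorem proj_single (i : Fin 3) (s : ℝ) :
    proj (s • EuclideanSpace.single i (1 : ℝ)) = Pi.single i (s : UnitAddCircle) := by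
  funext j
  by_cases h : j = i
  · subst h
    simp [proj]
  · simp [proj, h]

theorem proj_open : IsOpenQuotientMap proj := by
  have h1 : IsOpenQuotientMap (Pi.map fun _ : Fin 3 => ((↑) : ℝ → UnitAddCircle)) :=
    IsOpenQuotientMap.piMap fun _ => QuotientAddGroup.isOpenQuotientMap_mk
  exact h1.comp (PiLp.homeomorph 2 fun _ : Fin 3 => ℝ).isOpenQuotientMap

/-- the covering map -/
def cov (q : ℝ × R3 × R3) : ℝ × Om := (q.1, proj q.2.1, q.2.2)

theorem cov_open : IsOpenQuotientMap cov :=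
  IsOpenQuotientMap.id.prodMap (proj_open.prodMap IsOpenQuotientMap.id)

theorem line {E : Type} [NormedAddCommGroup E] [NormedSpace ℝ E] {Φ : E → ℝ}
    (h : Differentiable ℝ Φ) (p w : E) :
    HasDerivAt (fun s : ℝ => Φ (p + s • w)) (fderiv ℝ Φ p w) 0 := by
  have h1 : HasDerivAt (fun s : ℝ => p + s • w) w 0 := by
    simpa using ((hasDerivAt_id (0 : ℝ)).smul_const w).const_add p
  have h2 : HasFDerivAt Φ (fderiv ℝ Φ p) (p + (0 : ℝ) • w) := by
    rw [zero_smul, add_zero]
    exact (h p).hasFDerivAt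
  exact h2.comp_hasDerivAt (0 : ℝ) h1

section

variable {φ : ℝ × Om → ℝ} (h : Differentiable ℝ (φ ∘ cov))
include h

theorem d_line (t : ℝ) (x v : R3) :
    deriv (fun s : ℝ => φ (t + s, proj x + proj (s • v), v)) 0 =
      fderiv ℝ (φ ∘ cov) (t, x, v) (1, v, 0) := by
  rw [← (line h (t, x, v) (1, v, 0)).deriv]
  congr 1
  funext s
  simp [cov, proj_add]

theorem d_t (t : ℝ) (x v : R3) :
    deriv (fun s : ℝ => φ (s, proj x, v)) t = fderiv ℝ (φ ∘ cov) (t, x, v) (1, 0, 0) := by
  rw [← (line h (t, x, v) (1, 0, 0)).deriv]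
  have e : (fun s : ℝ => (φ ∘ cov) (((t, x, v) : ℝ × R3 × R3) + s • ((1, 0, 0) : ℝ × R3 × R3))) =
      fun s : ℝ => (fun r : ℝ => φ (r, proj x, v)) (t + s) := by
    funext s
    simp [cov]
  rw [e, deriv_comp_const_add (fun r : ℝ => φ (r, proj x, v)) t 0, add_zero]

theorem d_x (t : ℝ) (x v : R3) (i : Fin 3) :
    deriv (fun s : ℝ => φ (t, proj x + Pi.single i (s : UnitAddCircle), v)) 0 =
      fderiv ℝ (φ ∘ cov) (t, x, v) (0, EuclideanSpace.single i 1, 0) := by
  rw [← (line h (t, x, v) (0, EuclideanSpace.single i 1, 0)).deriv]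
  congr 1
  funext s
  show _ = φ (t + s • (0 : ℝ), proj (x + s • EuclideanSpace.single i (1 : ℝ)), v + s • (0 : R3))
  rw [proj_add, proj_single, smul_zero, smul_zero, add_zero, add_zero]

theorem transport_cov (p : ℝ × R3 × R3) :
    transport φ (cov p) = fderiv ℝ (φ ∘ cov) p (1, p.2.2, 0) := by
  obtain ⟨t, x, v⟩ := p
  show deriv (fun s : ℝ => φ (s, proj x, v)) t + ∑ i, v i *
    deriv (fun s : ℝ => φ (t, proj x + Pi.single i (s : UnitAddCircle), v)) 0 = _
  have e : ((1, v, 0) : ℝ × R3 × R3) =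
      (1, 0, 0) + ∑ i, v i • ((0, EuclideanSpace.single i 1, 0) : ℝ × R3 × R3) := by
    refine Prod.ext ?_ (Prod.ext ?_ ?_)
    · simp [Fin.sum_univ_three]
    · ext j
      fin_cases j <;> simp [Fin.sum_univ_three]
    · simp [Fin.sum_univ_three]
  rw [d_t h]
  simp only [d_x h]
  show _ = fderiv ℝ (φ ∘ cov) (t, x, v) (1, v, 0)
  rw [e, map_add, map_sum]
  simp only [map_smul, smul_eq_mul]

end

end Vale.Agent.P140W36.T90

namespace Vale.Agent.P140W36

open Vale.Agent.P122W36 (R3)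
open T90

theorem tr1_90 : TR1 := by
  intro φ hφ hc
  have hφ' : ContDiff ℝ (⊤ : ℕ∞) (φ ∘ cov) := hφ
  have hd : Differentiable ℝ (φ ∘ cov) := hφ'.differentiable (by simp)
  have h1 : Continuous φ := cov_open.continuous_comp_iff.1 hφ'.continuous
  have h2 : ∀ q : ℝ × Om, transport φ q =
      deriv (fun s : ℝ => φ (q.1 + s, q.2.1 + proj (s • q.2.2), q.2.2)) 0 := by
    intro q
    obtain ⟨p, rfl⟩ := cov_open.surjective q
    rw [transport_cov hd]
    exact (d_line hd p.1 p.2.1 p.2.2).symm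
  refine ⟨h1, cov_open.continuous_comp_iff.1 ?_, HasCompactSupport.intro hc fun q hq => ?_, h2⟩
  · have e : transport φ ∘ cov = fun p => fderiv ℝ (φ ∘ cov) p (1, p.2.2, 0) :=
      funext (transport_cov hd)
    rw [e]
    exact (hφ'.continuous_fderiv (by simp)).clm_apply (by fun_prop)
  · rw [h2]
    have h3 : φ =ᶠ[𝓝 q] 0 := notMem_tsupport_iff_eventuallyEq.1 hq
    have h4 : Continuous fun s : ℝ => ((q.1 + s, q.2.1 + proj (s • q.2.2), q.2.2) : ℝ × Om) := by
      have := proj_open.continuous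
      fun_prop
    have h5 : Tendsto (fun s : ℝ => ((q.1 + s, q.2.1 + proj (s • q.2.2), q.2.2) : ℝ × Om))
        (𝓝 0) (𝓝 q) := by
      refine h4.tendsto' 0 q ?_
      have : proj (0 : R3) = 0 := by
        funext i
        simp [proj]
      simp [this]
    have h6 : (fun s : ℝ => φ (q.1 + s, q.2.1 + proj (s • q.2.2), q.2.2)) =ᶠ[𝓝 0]
        fun _ => 0 := h3.comp_tendsto h5
    rw [h6.deriv_eq, deriv_const]

end Vale.Agent.P140W36
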